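import Mathlib

/-!
# Data of a twisted functional on words
-/

namespace Vale.Agent.P184.H505

/-- A field of vectors on `G` and a functional on the words of vectors, compatible with the
relation `v p * v p = 1`, twisted by `x` and invariant under the centralizer of `x`. -/
structure PfData (G V : Type*) [Group G] [AddCommGroup V] (x : G) where
  v : G → V
  Pf : List V → ℝ
  nil : Pf [] = 1
  sub : ∀ (A : List V) (u w : V) (B : List V),
    Pf (A ++ (u - w) :: B) = Pf (A ++ u :: B) - Pf (A ++ w :: B)
  sq : ∀ (A : List V) (p : G) (B : List V), Pf (A ++ v p :: v p :: B) = Pf (A ++ B)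
  cyc : ∀ (p : G) (L : List G), Odd L.length → Pf (v p :: L.map v) = - Pf (L.map v ++ [v (x * p)])
  inv : ∀ h : G, h * x = x * h → ∀ L : List G, Pf ((L.map (h * ·)).map v) = Pf (L.map v)
  bd : ∀ n : ℕ, ∃ C : ℝ, ∀ L : List G, L.length = n → |Pf (L.map v)| ≤ C

end Vale.Agent.P184.H505
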