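import Vale.Agent.P184.H505.Alg
import Vale.Agent.P184.H505.PfData

/-!
# Block (a3): the trace at `x` in terms of Pfaffians of differences along closed chains
-/

open scoped ENNReal
open Vale.Agent.P184.Un

namespace Vale.Agent.P184.H505

set_option linter.unusedSectionVars false

/-- The vertices of a list of triples. -/
def fl {G : Type*} (R : List (G × G × G)) : List G := R.flatMap fun t => [t.1, t.2.1, t.2.2]

theorem fl_nil {G : Type*} : fl ([] : List (G × G × G)) = [] := rfl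

theorem fl_cons {G : Type*} (t : G × G × G) (R : List (G × G × G)) :
    fl (t :: R) = t.1 :: t.2.1 :: t.2.2 :: fl R := rfl

theorem fl_append {G : Type*} (R R' : List (G × G × G)) : fl (R ++ R') = fl R ++ fl R' := by
  simp [fl]

theorem length_fl {G : Type*} (R : List (G × G × G)) : (fl R).length = 3 * R.length := by
  induction R with
  | nil => rfl
  | cons t R ih =>
    rw [fl_cons]
    simp only [List.length_cons, ih]
    ring

theorem exists_fl {G : Type*} (k : ℕ) : ∀ L : List G, L.length = 3 * k →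
    ∃ R : List (G × G × G), R.length = k ∧ L = fl R := by
  induction k with
  | zero =>
    intro L hL
    exact ⟨[], rfl, List.length_eq_zero_iff.1 (by omega)⟩
  | succ k ih =>
    intro L hL
    match L, hL with
    | q :: b :: c :: L', hL =>
      obtain ⟨R, hR, rfl⟩ := ih L' (by
        simp only [List.length_cons] at hL
        omega)
      exact ⟨(q, b, c) :: R, by simp [hR], rfl⟩
    | [], hL => simp at hL
    | [_], hL =>
      simp only [List.length_cons, List.length_nil] at hL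
      omega
    | [_, _], hL =>
      simp only [List.length_cons, List.length_nil] at hL
      omega

namespace PfData

variable {G V : Type*} [Group G] [AddCommGroup V] {x : G} (D : PfData G V x)

/-- The differences along the triples. -/
def dl (R : List (G × G × G)) : List V :=
  R.flatMap fun t => [D.v t.1 - D.v t.2.1, D.v t.2.1 - D.v t.2.2]

theorem dl_append (R R' : List (G × G × G)) : D.dl (R ++ R') = D.dl R ++ D.dl R' := by
  simp [dl]

/-- The function on the lists of vertices. -/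
noncomputable def P (L : List G) : ℂ := (D.Pf (L.map D.v) : ℂ)

theorem P_bd : BdL D.P := by
  intro N
  choose C hC using D.bd
  refine ⟨∑ n ∈ Finset.range (N + 1), |C n|, fun L hL => ?_⟩
  rw [P, Complex.norm_real, Real.norm_eq_abs]
  refine (hC _ L rfl).trans ((le_abs_self _).trans ?_)
  exact Finset.single_le_sum (f := fun n => |C n|) (fun n _ => abs_nonneg _)
    (Finset.mem_range.2 (by omega))

theorem Fm_fl (k : ℕ) : ∀ (R : List (G × G × G)) (Q : List G), R.length = k →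
    Fm D.P k (fl R ++ Q) = (D.Pf (D.dl R ++ Q.map D.v) : ℂ) := by
  induction k with
  | zero =>
    intro R Q hR
    rw [List.length_eq_zero_iff.1 hR]
    simp [Fm_zero, P, fl, dl]
  | succ k ih =>
    intro R Q hR
    obtain ⟨R', t, rfl⟩ : ∃ R' t, R = R' ++ [t] := by
      rcases List.eq_nil_or_concat R with h | ⟨R', t, h⟩
      · rw [h] at hR
        simp at hR
      · exact ⟨R', t, by rw [h, List.concat_eq_append]⟩
    have hR' : R'.length = k := by simpa using hR
    obtain ⟨q, b, c⟩ := t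
    have hl : (fl R').length = 3 * k := by rw [length_fl, hR']
    have e0 : fl (R' ++ [(q, b, c)]) ++ Q = fl R' ++ (q :: b :: c :: Q) := by
      rw [fl_append]
      simp [fl]
    have er : ∀ (i : ℕ) (M : List G), (fl R' ++ M).eraseIdx (3 * k + i) =
        fl R' ++ M.eraseIdx i := by
      intro i M
      rw [List.eraseIdx_append_of_length_le (by omega), hl]
      congr 2
      omega
    have er0 : ∀ (M : List G), (fl R' ++ M).eraseIdx (3 * k) = fl R' ++ M.eraseIdx 0 := er 0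
    rw [e0, Fm_succ, er 2, er 1, er0]
    simp only [List.eraseIdx_cons_succ, List.eraseIdx_cons_zero]
    rw [er 1, er0]
    simp only [List.eraseIdx_cons_succ, List.eraseIdx_cons_zero]
    rw [ih R' _ hR', ih R' _ hR', ih R' _ hR', ih R' _ hR']
    simp only [List.map_cons]
    have h1 : D.dl (R' ++ [(q, b, c)]) ++ Q.map D.v =
        D.dl R' ++ (D.v q - D.v b) :: ((D.v b - D.v c) :: Q.map D.v) := by
      rw [dl_append]
      simp [dl]
    have h2 : ∀ u : V, D.Pf (D.dl R' ++ u :: (D.v b - D.v c) :: Q.map D.v) =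
        D.Pf (D.dl R' ++ u :: D.v b :: Q.map D.v) -
          D.Pf (D.dl R' ++ u :: D.v c :: Q.map D.v) := by
      intro u
      have h3 := D.sub (D.dl R' ++ [u]) (D.v b) (D.v c) (Q.map D.v)
      simpa using h3
    rw [h1, D.sub, h2, h2, D.sq]
    push_cast
    ring

end PfData

/-! ### The estimate -/

section Est

variable {G A : Type*} [Group G] [NormedRing A] [NormedAlgebra ℂ A] {x : G}
  (r : Rho x) {a : G → A} (tr : A →L[ℂ] ℂ)

/-- The weights of the steps. -/
noncomputable def wt (ν0 ν1 : G → ℝ) (j : ℕ) (g : G) : ℝ≥0∞ :=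
  if j % 3 = 0 then ENNReal.ofReal (ν0 g) else ENNReal.ofReal (ν1 g)

theorem wt_prod (ν0 ν1 : G → ℝ) (k : ℕ) :
    ∏ j ∈ Finset.range (3 * k + 1), ∑' g, wt ν0 ν1 j g =
      (∑' g, ENNReal.ofReal (ν0 g)) ^ (k + 1) * (∑' g, ENNReal.ofReal (ν1 g)) ^ (2 * k) := by
  induction k with
  | zero => simp [wt]
  | succ k ih =>
    have e : 3 * (k + 1) + 1 = 3 * k + 1 + 1 + 1 + 1 := by ring
    have h1 : (3 * k + 1) % 3 ≠ 0 := by omega
    have h2 : (3 * k + 1 + 1) % 3 ≠ 0 := by omega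
    have h3 : (3 * k + 1 + 1 + 1) % 3 = 0 := by omega
    rw [e, Finset.prod_range_succ, Finset.prod_range_succ, Finset.prod_range_succ, ih]
    simp only [wt, h1, h2, h3, if_true, if_false]
    ring

theorem ofReal_aux {x y z u w : ℝ} (hx : 0 ≤ x) (hy : 0 ≤ y) (hz : 0 ≤ z) (hu : 0 ≤ u) :
    ENNReal.ofReal (x * (y * (z * (u * w)))) = ENNReal.ofReal x * (ENNReal.ofReal y *
      (ENNReal.ofReal z * (ENNReal.ofReal u * ENNReal.ofReal w))) := by
  rw [ENNReal.ofReal_mul hx, ENNReal.ofReal_mul hy, ENNReal.ofReal_mul hz, ENNReal.ofReal_mul hu]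

theorem ep_le_cw {ν : A → ℝ} (hν0 : ∀ b, 0 ≤ ν b) (hνm : ∀ b c, ν (b * c) ≤ ν b * ν c)
    {len : G → ℝ} (h0 : ∀ g, 0 ≤ len g) (R : List (G × G × G)) : ∀ (i : ℕ) (p p' : G),
    ENNReal.ofReal (ν (ep a p (fl R) p')) * ENNReal.ofReal
      (R.map fun t => len (t.1⁻¹ * t.2.1) * len (t.2.1⁻¹ * t.2.2)).prod ≤
      cw (wt (fun g => ν (a g)) fun g => ν (a g) * len g) (3 * i) p (fl R) p' := by
  induction R with
  | nil =>
    intro i p p'
    have h1 : (3 * i) % 3 = 0 := by omega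
    simp only [fl_nil, ep_nil, cw_nil, wt, h1, if_true, List.map_nil, List.prod_nil,
      ENNReal.ofReal_one, mul_one]
    exact le_rfl
  | cons t R ih =>
    intro i p p'
    obtain ⟨q, b, c⟩ := t
    have h1 : (3 * i) % 3 = 0 := by omega
    have h2 : (3 * i + 1) % 3 ≠ 0 := by omega
    have h3 : (3 * i + 1 + 1) % 3 ≠ 0 := by omega
    have e : 3 * i + 1 + 1 + 1 = 3 * (i + 1) := by ring
    simp only [fl_cons, ep_cons, cw_cons, List.map_cons, List.prod_cons]
    rw [e]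
    have h4 : cw (wt (fun g => ν (a g)) fun g => ν (a g) * len g) (3 * (i + 1)) c (fl R) p' ≥
      ENNReal.ofReal (ν (ep a c (fl R) p')) * ENNReal.ofReal
      (R.map fun t => len (t.1⁻¹ * t.2.1) * len (t.2.1⁻¹ * t.2.2)).prod := ih (i + 1) c p'
    have h5 : ν (a (p⁻¹ * q) * (a (q⁻¹ * b) * (a (b⁻¹ * c) * ep a c (fl R) p'))) ≤
        ν (a (p⁻¹ * q)) * (ν (a (q⁻¹ * b)) * (ν (a (b⁻¹ * c)) * ν (ep a c (fl R) p'))) := by
      refine (hνm _ _).trans (mul_le_mul_of_nonneg_left ?_ (hν0 _))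
      refine (hνm _ _).trans (mul_le_mul_of_nonneg_left ?_ (hν0 _))
      exact hνm _ _
    have h6 : 0 ≤ (R.map fun t => len (t.1⁻¹ * t.2.1) * len (t.2.1⁻¹ * t.2.2)).prod := by
      refine List.prod_nonneg fun z hz => ?_
      obtain ⟨t, _, rfl⟩ := List.mem_map.1 hz
      exact mul_nonneg (h0 _) (h0 _)
    have hl := mul_nonneg (h0 (q⁻¹ * b)) (h0 (b⁻¹ * c))
    rw [← ENNReal.ofReal_mul (hν0 _)]
    have h7 : ν (a (p⁻¹ * q) * (a (q⁻¹ * b) * (a (b⁻¹ * c) * ep a c (fl R) p'))) *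
        (len (q⁻¹ * b) * len (b⁻¹ * c) *
          (R.map fun t => len (t.1⁻¹ * t.2.1) * len (t.2.1⁻¹ * t.2.2)).prod) ≤
        ν (a (p⁻¹ * q)) * ((ν (a (q⁻¹ * b)) * len (q⁻¹ * b)) *
          ((ν (a (b⁻¹ * c)) * len (b⁻¹ * c)) * (ν (ep a c (fl R) p') *
            (R.map fun t => len (t.1⁻¹ * t.2.1) * len (t.2.1⁻¹ * t.2.2)).prod))) := by
      refine (mul_le_mul_of_nonneg_right h5 (mul_nonneg hl h6)).trans (le_of_eq ?_)
      ring
    refine (ENNReal.ofReal_le_ofReal h7).trans ?_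
    rw [ofReal_aux (hν0 _) (mul_nonneg (hν0 _) (h0 _)) (mul_nonneg (hν0 _) (h0 _)) (hν0 _)]
    simp only [wt, h1, h2, h3, if_true, if_false]
    exact mul_le_mul' le_rfl (mul_le_mul' le_rfl (mul_le_mul' le_rfl h4))

theorem CS_bound {ν : A → ℝ} (hν0 : ∀ b, 0 ≤ ν b) (hνm : ∀ b c, ν (b * c) ≤ ν b * ν c)
    (hνt : ∀ b, ‖tr b‖ ≤ ν b) {len : G → ℝ} (h0 : ∀ g, 0 ≤ len g)
    (S0 : Summable fun g => ν (a g)) (S1 : Summable fun g => ν (a g) * len g) {k : ℕ} {B : ℝ}
    (hB0 : 0 ≤ B) {Φ : G → List G → ℂ}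
    (hΦ : ∀ p (R : List (G × G × G)), R.length = k → ‖Φ p (fl R)‖ ≤
      B * (R.map fun t => len (t.1⁻¹ * t.2.1) * len (t.2.1⁻¹ * t.2.2)).prod) :
    ‖CS r a tr (3 * k) Φ‖ ≤
      B * (∑' g, ν (a g)) ^ (k + 1) * (∑' g, ν (a g) * len g) ^ (2 * k) := by
  have hz : ∀ z : {y : G // IsConj x y} × (Fin (3 * k) → G),
      ENNReal.ofReal ‖term r a tr Φ z‖ ≤ ENNReal.ofReal B *
        cw (wt (fun g => ν (a g)) fun g => ν (a g) * len g) 0 (r.ρ z.1) (List.ofFn z.2)
          (x * r.ρ z.1) := by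
    intro z
    obtain ⟨R, hR, hR2⟩ := exists_fl k (List.ofFn z.2) List.length_ofFn
    unfold term
    rw [hR2, norm_mul, ENNReal.ofReal_mul (norm_nonneg _)]
    have h1 := ep_le_cw (a := a) hν0 hνm h0 R 0 (r.ρ z.1) (x * r.ρ z.1)
    rw [Nat.mul_zero] at h1
    calc ENNReal.ofReal ‖tr (ep a (r.ρ z.1) (fl R) (x * r.ρ z.1))‖ *
          ENNReal.ofReal ‖Φ (r.ρ z.1) (fl R)‖
        ≤ ENNReal.ofReal (ν (ep a (r.ρ z.1) (fl R) (x * r.ρ z.1))) *
          ENNReal.ofReal (B * (R.map fun t => len (t.1⁻¹ * t.2.1) * len (t.2.1⁻¹ * t.2.2)).prod) :=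
          mul_le_mul' (ENNReal.ofReal_le_ofReal (hνt _)) (ENNReal.ofReal_le_ofReal (hΦ _ R hR))
      _ = ENNReal.ofReal B * (ENNReal.ofReal (ν (ep a (r.ρ z.1) (fl R) (x * r.ρ z.1))) *
          ENNReal.ofReal (R.map fun t => len (t.1⁻¹ * t.2.1) * len (t.2.1⁻¹ * t.2.2)).prod) := by
          rw [ENNReal.ofReal_mul hB0]
          ring
      _ ≤ _ := mul_le_mul' le_rfl h1
  have hN0 : 0 ≤ ∑' g, ν (a g) := tsum_nonneg fun g => hν0 _
  have hN1 : 0 ≤ ∑' g, ν (a g) * len g := tsum_nonneg fun g => mul_nonneg (hν0 _) (h0 _)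
  have hs : ∑' z : {y : G // IsConj x y} × (Fin (3 * k) → G),
      ENNReal.ofReal ‖term r a tr Φ z‖ ≤ ENNReal.ofReal
        (B * (∑' g, ν (a g)) ^ (k + 1) * (∑' g, ν (a g) * len g) ^ (2 * k)) := by
    refine (ENNReal.tsum_le_tsum hz).trans ?_
    rw [ENNReal.tsum_mul_left, mul_assoc B, ENNReal.ofReal_mul hB0]
    refine mul_le_mul' le_rfl ?_
    refine (r.closed_sum (wt (fun g => ν (a g)) fun g => ν (a g) * len g) (3 * k)).trans ?_
    rw [wt_prod, ENNReal.ofReal_mul (pow_nonneg hN0 _), ENNReal.ofReal_pow hN0,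
      ENNReal.ofReal_pow hN1, ENNReal.ofReal_tsum_of_nonneg (fun g => hν0 _) S0,
      ENNReal.ofReal_tsum_of_nonneg (fun g => mul_nonneg (hν0 _) (h0 _)) S1]
  have hs2 : ∑' z : {y : G // IsConj x y} × (Fin (3 * k) → G),
      ENNReal.ofReal ‖term r a tr Φ z‖ ≠ ∞ := ne_top_of_le_ne_top ENNReal.ofReal_ne_top hs
  have h3 : Summable fun z : {y : G // IsConj x y} × (Fin (3 * k) → G) =>
      ‖term r a tr Φ z‖ := (ENNReal.summable_toReal hs2).congr fun z => by
    rw [ENNReal.toReal_ofReal (norm_nonneg _)]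
  refine (norm_tsum_le_tsum_norm h3).trans ?_
  have h4 : ∑' z : {y : G // IsConj x y} × (Fin (3 * k) → G), ‖term r a tr Φ z‖ =
      (∑' z : {y : G // IsConj x y} × (Fin (3 * k) → G),
        ENNReal.ofReal ‖term r a tr Φ z‖).toReal := by
    rw [← ENNReal.ofReal_tsum_of_nonneg (fun _ => norm_nonneg _) h3,
      ENNReal.toReal_ofReal (tsum_nonneg fun _ => norm_nonneg _)]
  rw [h4]
  refine ENNReal.toReal_le_of_le_ofReal ?_ hs
  positivity

end Est

/-! ### Matrices -/

section Mat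

variable {G : Type*} [Group G] {q : ℕ}

/-- The matrices with the operator norm. -/
def MQ (q : ℕ) : Type := Matrix (Fin q) (Fin q) ℂ

noncomputable instance : NormedRing (MQ q) := Matrix.linftyOpNormedRing

noncomputable instance : NormedAlgebra ℂ (MQ q) := Matrix.linftyOpNormedAlgebra

instance : FiniteDimensional ℂ (MQ q) :=
  inferInstanceAs (FiniteDimensional ℂ (Matrix (Fin q) (Fin q) ℂ))

instance : CompleteSpace (MQ q) := FiniteDimensional.complete ℂ (MQ q)

/-- The trace. -/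
noncomputable def trC (q : ℕ) : MQ q →L[ℂ] ℂ :=
  LinearMap.toContinuousLinearMap (E := MQ q) (Matrix.traceLinearMap (Fin q) ℂ ℂ)

theorem trC_apply (b : MQ q) : trC q b = Matrix.trace b := rfl

theorem trC_comm (b c : MQ q) : trC q (b * c) = trC q (c * b) := by
  rw [trC_apply, trC_apply]
  exact Matrix.trace_mul_comm _ _

/-- The sum of the absolute values of the entries. -/
noncomputable def nu (b : MQ q) : ℝ := ∑ i, ∑ j, ‖b i j‖

theorem nu_nonneg (b : MQ q) : 0 ≤ nu b :=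
  Finset.sum_nonneg fun _ _ => Finset.sum_nonneg fun _ _ => norm_nonneg _

theorem nu_mul (b c : MQ q) : nu (b * c) ≤ nu b * nu c := by
  have h1 : ∀ i j, ‖(b * c) i j‖ ≤ ∑ k, ‖b i k‖ * ‖c k j‖ := by
    intro i j
    have h0 : (b * c) i j = ∑ k, b i k * c k j := Matrix.mul_apply
    rw [h0]
    refine (norm_sum_le _ _).trans (Finset.sum_le_sum fun k _ => norm_mul_le _ _)
  have h2 : nu (b * c) ≤ ∑ i, ∑ j, ∑ k, ‖b i k‖ * ‖c k j‖ :=
    Finset.sum_le_sum fun i _ => Finset.sum_le_sum fun j _ => h1 i j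
  refine h2.trans ?_
  have h3 : ∀ i, ∑ j, ∑ k, ‖b i k‖ * ‖c k j‖ = ∑ k, ‖b i k‖ * ∑ j, ‖c k j‖ := by
    intro i
    rw [Finset.sum_comm]
    simp only [Finset.mul_sum]
  simp only [h3]
  unfold nu
  rw [Finset.sum_mul]
  refine Finset.sum_le_sum fun i _ => ?_
  rw [Finset.sum_mul]
  refine Finset.sum_le_sum fun k _ => ?_
  refine mul_le_mul_of_nonneg_left ?_ (norm_nonneg _)
  exact Finset.single_le_sum (f := fun k => ∑ j, ‖c k j‖)
    (fun _ _ => Finset.sum_nonneg fun _ _ => norm_nonneg _) (Finset.mem_univ k)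

theorem norm_trace_le (b : MQ q) : ‖trC q b‖ ≤ nu b := by
  rw [trC_apply]
  refine (norm_sum_le _ _).trans (Finset.sum_le_sum fun i _ => ?_)
  exact Finset.single_le_sum (f := fun j => ‖b i j‖) (fun _ _ => norm_nonneg _)
    (Finset.mem_univ i)

/-- The coefficients. -/
def cf (e : Mat G q) (g : G) : MQ q := Matrix.of fun i j => e i j g

theorem nu_cf (e : Mat G q) (w : G → ℝ) (h : ∀ i j, Summable fun g => ‖e i j g‖ * w g) :
    HasSum (fun g => nu (cf e g) * w g) (∑ i, ∑ j, ∑' g, ‖e i j g‖ * w g) := by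
  have h1 : (fun g => nu (cf e g) * w g) = fun g => ∑ i, ∑ j, ‖e i j g‖ * w g := by
    funext g
    unfold nu cf
    rw [Finset.sum_mul]
    refine Finset.sum_congr rfl fun i _ => ?_
    rw [Finset.sum_mul]
    rfl
  rw [h1]
  exact hasSum_sum fun i _ => hasSum_sum fun j _ => (h i j).hasSum

theorem norm_le_nu (b : MQ q) : ‖b‖ ≤ nu b := by
  have h0 : ‖b‖ = ((Finset.univ.sup fun i => ∑ j, ‖b i j‖₊ : NNReal) : ℝ) :=
    Matrix.linfty_opNorm_def _
  rw [h0]
  have h : ∀ i ∈ Finset.univ, ∑ j, ‖b i j‖₊ ≤ ∑ i, ∑ j, ‖b i j‖₊ := fun i hi =>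
    Finset.single_le_sum (f := fun i => ∑ j, ‖b i j‖₊) (fun _ _ => zero_le) hi
  have h2 := Finset.sup_le h
  have h3 : ((∑ i, ∑ j, ‖b i j‖₊ : NNReal) : ℝ) = nu b := by
    unfold nu
    push_cast
    rfl
  rw [← h3]
  exact_mod_cast h2

theorem cf_idem (e : Mat G q) (he : IsIdem e) (g : G) :
    HasSum (fun h => cf e h * cf e (h⁻¹ * g)) (cf e g) := by
  have h1 : ∀ i k j, Summable fun h => e i k h * e k j (h⁻¹ * g) := by
    intro i k j
    have hb : ∀ g', ‖e k j g'‖ ≤ ∑' g', ‖e k j g'‖ := fun g' =>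
      (he.1 k j).le_tsum g' fun _ _ => norm_nonneg _
    refine Summable.of_norm_bounded ((he.1 i k).mul_right (∑' g', ‖e k j g'‖)) fun h => ?_
    rw [norm_mul]
    exact mul_le_mul_of_nonneg_left (hb _) (norm_nonneg _)
  have hpi : ∀ (f : G → Matrix (Fin q) (Fin q) ℂ) (s : Matrix (Fin q) (Fin q) ℂ),
      (∀ i j, HasSum (fun h => f h i j) (s i j)) → HasSum f s := fun f s hf =>
    Pi.hasSum.2 fun i => Pi.hasSum.2 fun j => hf i j
  refine hpi _ _ fun i j => ?_
  have h2 : HasSum (fun h => ∑ k, e i k h * e k j (h⁻¹ * g))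
      (∑ k, ∑' h, e i k h * e k j (h⁻¹ * g)) := hasSum_sum fun k _ => (h1 i k j).hasSum
  have h3 : ∑ k, ∑' h, e i k h * e k j (h⁻¹ * g) = cf e g i j := by
    have := congrFun (congrFun (congrFun he.2 i) j) g
    exact this
  rw [h3] at h2
  refine h2.congr_fun ?_ |> fun h => h
  intro h
  rfl

theorem tau_eq {x : G} (r : Rho x) (e : Mat G q) (P : List G → ℂ) (hP : P [] = 1) :
    CS r (cf e) (trC q) 0 (fun _ L => P L) = tau (ConjClasses.mk x) e := by
  unfold CS tau
  have hy : ∀ y : G, y ∈ (ConjClasses.mk x).carrier ↔ IsConj x y := by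
    intro y
    rw [ConjClasses.mem_carrier_iff_mk_eq, ConjClasses.mk_eq_mk_iff_isConj, isConj_comm]
  let ee : {y : G // IsConj x y} × (Fin 0 → G) ≃ (ConjClasses.mk x).carrier :=
    (Equiv.prodUnique _ _).trans (Equiv.subtypeEquivRight fun y => (hy y).symm)
  rw [← ee.tsum_eq]
  refine tsum_congr fun z => ?_
  have h1 : ((ee z : (ConjClasses.mk x).carrier) : G) = z.1 := rfl
  unfold term
  rw [h1]
  simp only [List.ofFn_zero, ep_nil, hP, mul_one]
  have h2 : (r.ρ z.1)⁻¹ * (x * r.ρ z.1) = z.1 := by rw [← mul_assoc]; exact r.spec z.1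
  rw [h2]
  rfl

variable {V : Type*} [AddCommGroup V] {x : G}

/-- Block (a3). -/
theorem PfData.bound (D : PfData G V x) (e : Mat G q) (he : IsIdem e) (len : G → ℝ)
    (h0 : ∀ g, 0 ≤ len g) (h1 : ∀ i j, Summable fun g => ‖e i j g‖ * len g) (k : ℕ) (B : ℝ)
    (hB0 : 0 ≤ B)
    (hB : ∀ R : List (G × G × G), R.length = k →
      |D.Pf (R.flatMap fun t => [D.v t.1 - D.v t.2.1, D.v t.2.1 - D.v t.2.2])| ≤
        B * (R.map fun t => len (t.1⁻¹ * t.2.1) * len (t.2.1⁻¹ * t.2.2)).prod) :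
    ‖tau (ConjClasses.mk x) e‖ ≤ B * (∑ i, ∑ j, ∑' g, ‖e i j g‖) ^ (k + 1) *
      (∑ i, ∑ j, ∑' g, ‖e i j g‖ * len g) ^ (2 * k) := by
  obtain ⟨r⟩ := exists_rho x
  have hν : HasSum (fun g => nu (cf e g)) (∑ i, ∑ j, ∑' g, ‖e i j g‖) := by
    have h2 := nu_cf e (fun _ => 1) (fun i j => by simpa using he.1 i j)
    simpa using h2
  have hν1 := nu_cf e len h1
  have ha : Summable fun g => ‖cf e g‖ :=
    Summable.of_nonneg_of_le (fun _ => norm_nonneg _) (fun g => norm_le_nu _) hν.summable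
  have h2 := (CS_main r (trC q) ha (cf_idem e he) trC_comm D.P_bd (fun h hh L => by
      unfold PfData.P
      rw [D.inv h hh]) (fun p L hL => by
      unfold PfData.P
      rw [List.map_cons, D.cyc p L hL]
      simp) k).2
  have h3 := tau_eq r e D.P (by simp [PfData.P, D.nil])
  rw [h3] at h2
  have h4 : ‖tau (ConjClasses.mk x) e‖ =
      ‖CS r (cf e) (trC q) (3 * k) fun _ L => Fm D.P k L‖ := by
    rw [h2]
    simp
  rw [h4]
  have h5 := CS_bound (a := cf e) r (trC q) nu_nonneg nu_mul norm_trace_le h0 hν.summable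
    hν1.summable hB0 (Φ := fun _ L => Fm D.P k L) (k := k) (fun p R hR => by
      have h6 := D.Fm_fl k R [] hR
      rw [List.append_nil, List.map_nil, List.append_nil] at h6
      rw [h6, Complex.norm_real, Real.norm_eq_abs]
      exact hB R hR)
  rw [hν.tsum_eq, hν1.tsum_eq] at h5
  exact h5

end Mat

end Vale.Agent.P184.H505
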