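import Vale.Agent.P184.H505.Word

/-!
# The periodicity identity on closed chains
-/

open scoped ENNReal

namespace Vale.Agent.P184.H505

set_option linter.unusedSectionVars false

/-- The function of the chains obtained by expanding `m` pairs of differences. -/
def Fm {G : Type*} (P : List G → ℂ) : ℕ → List G → ℂ
  | 0, L => P L
  | m + 1, L => Fm P m (L.eraseIdx (3 * m + 2)) - Fm P m (L.eraseIdx (3 * m + 1)) -
      Fm P m (((L.eraseIdx (3 * m + 2)).eraseIdx (3 * m + 1)).eraseIdx (3 * m)) +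
      Fm P m (L.eraseIdx (3 * m))

theorem Fm_zero {G : Type*} (P : List G → ℂ) (L : List G) : Fm P 0 L = P L := rfl

theorem Fm_succ {G : Type*} (P : List G → ℂ) (m : ℕ) (L : List G) :
    Fm P (m + 1) L = Fm P m (L.eraseIdx (3 * m + 2)) - Fm P m (L.eraseIdx (3 * m + 1)) -
      Fm P m (((L.eraseIdx (3 * m + 2)).eraseIdx (3 * m + 1)).eraseIdx (3 * m)) +
      Fm P m (L.eraseIdx (3 * m)) := rfl

/-- `P` is bounded on the lists of bounded length. -/
def BdL {G : Type*} (P : List G → ℂ) : Prop :=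
  ∀ N : ℕ, ∃ K : ℝ, ∀ L : List G, L.length ≤ N → ‖P L‖ ≤ K

theorem Fm_bd {G : Type*} {P : List G → ℂ} (hP : BdL P) (m : ℕ) : BdL (Fm P m) := by
  induction m with
  | zero => exact hP
  | succ m ih =>
    intro N
    obtain ⟨K, hK⟩ := ih N
    refine ⟨K + K + K + K, fun L hL => ?_⟩
    have h1 : ∀ i (L : List G), L.length ≤ N → (L.eraseIdx i).length ≤ N := fun i L hL =>
      (List.length_eraseIdx_le L i).trans hL
    rw [Fm_succ]
    refine (norm_add_le _ _).trans (add_le_add ((norm_sub_le _ _).trans (add_le_add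
      ((norm_sub_le _ _).trans (add_le_add ?_ ?_)) ?_)) ?_)
    · exact hK _ (h1 _ _ hL)
    · exact hK _ (h1 _ _ hL)
    · exact hK _ (h1 _ _ (h1 _ _ (h1 _ _ hL)))
    · exact hK _ (h1 _ _ hL)

variable {G A : Type*} [Group G] [NormedRing A] [NormedAlgebra ℂ A] {x : G}
  (r : Rho x) {a : G → A} (tr : A →L[ℂ] ℂ) (ha : Summable fun g => ‖a g‖)
include ha

theorem CS_lin {N : ℕ} {Φ1 Φ2 Φ3 Φ4 : G → List G → ℂ} {K : ℝ}
    (h1 : ∀ p L, L.length = N → ‖Φ1 p L‖ ≤ K) (h2 : ∀ p L, L.length = N → ‖Φ2 p L‖ ≤ K)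
    (h3 : ∀ p L, L.length = N → ‖Φ3 p L‖ ≤ K) (h4 : ∀ p L, L.length = N → ‖Φ4 p L‖ ≤ K) :
    CS r a tr N (fun p L => Φ1 p L - Φ2 p L - Φ3 p L + Φ4 p L) =
      CS r a tr N Φ1 - CS r a tr N Φ2 - CS r a tr N Φ3 + CS r a tr N Φ4 := by
  have s1 := (term_summable r tr ha h1).hasSum
  have s2 := (term_summable r tr ha h2).hasSum
  have s3 := (term_summable r tr ha h3).hasSum
  have s4 := (term_summable r tr ha h4).hasSum
  have h := (((s1.sub s2).sub s3).add s4).tsum_eq
  unfold CS
  rw [← h]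
  refine tsum_congr fun z => ?_
  simp only [term]
  ring

variable [CompleteSpace A] (hid : ∀ g, HasSum (fun h => a h * a (h⁻¹ * g)) (a g))
include hid

theorem CS_rec {P : List G → ℂ} (hP : BdL P) (m n : ℕ) :
    CS r a tr (3 * (m + 1) + n) (fun _ L => Fm P (m + 1) L) =
      CS r a tr (3 * m + (n + 2)) (fun _ L => Fm P m L) -
        CS r a tr (3 * m + n) (fun _ L => Fm P m L) := by
  obtain ⟨K, hK⟩ := Fm_bd hP m (3 * m + n + 3)
  have hle : ∀ (L : List G) i, (L.eraseIdx i).length ≤ L.length := fun L i =>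
    List.length_eraseIdx_le L i
  have e1 : 3 * (m + 1) + n = (3 * m + (n + 2)) + 1 := by ring
  have e2 : 3 * m + (n + 2) = (3 * m + (n + 1)) + 1 := by ring
  have e3 : 3 * m + (n + 1) = (3 * m + n) + 1 := by ring
  have key := CS_lin r tr ha (N := 3 * m + (n + 2) + 1) (K := K)
    (Φ1 := fun _ L => Fm P m (L.eraseIdx (3 * m + 2)))
    (Φ2 := fun _ L => Fm P m (L.eraseIdx (3 * m + 1)))
    (Φ3 := fun _ L => Fm P m (((L.eraseIdx (3 * m + 2)).eraseIdx (3 * m + 1)).eraseIdx (3 * m)))
    (Φ4 := fun _ L => Fm P m (L.eraseIdx (3 * m)))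
    (fun _ L hL => hK _ ((hle _ _).trans (by omega)))
    (fun _ L hL => hK _ ((hle _ _).trans (by omega)))
    (fun _ L hL => hK _ ((hle _ _).trans ((hle _ _).trans ((hle _ _).trans (by omega)))))
    (fun _ L hL => hK _ ((hle _ _).trans (by omega)))
  have hb : ∀ N', N' ≤ 3 * m + n + 3 → ∀ (_ : G) (L : List G), L.length = N' →
      ‖Fm P m L‖ ≤ K := fun N' hN' _ L hL => hK L (by omega)
  rw [e1]
  refine key.trans ?_
  rw [CS_contract r tr ha hid (3 * m + 2) (by omega) (Φ := fun _ L => Fm P m L) (K := K)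
      (hb _ (by omega)),
    CS_contract r tr ha hid (3 * m + 1) (by omega) (Φ := fun _ L => Fm P m L) (K := K)
      (hb _ (by omega)),
    CS_contract r tr ha hid (3 * m) (by omega) (Φ := fun _ L => Fm P m L) (K := K)
      (hb _ (by omega)),
    CS_contract r tr ha hid (3 * m + 2) (by omega)
      (Φ := fun _ L => Fm P m ((L.eraseIdx (3 * m + 1)).eraseIdx (3 * m))) (K := K)
      (fun _ L hL => hK _ ((hle _ _).trans ((hle _ _).trans (by omega)))), e2,
    CS_contract r tr ha hid (3 * m + 1) (by omega)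
      (Φ := fun _ L => Fm P m (L.eraseIdx (3 * m))) (K := K)
      (fun _ L hL => hK _ ((hle _ _).trans (by omega))), e3,
    CS_contract r tr ha hid (3 * m) (by omega) (Φ := fun _ L => Fm P m L) (K := K)
      (hb _ (by omega))]
  ring

/-- The words with an even number of letters `W`. -/
theorem CS_even (htr : ∀ b c, tr (b * c) = tr (c * b)) {P : List G → ℂ} (hP : BdL P)
    (hinv : ∀ h, h * x = x * h → ∀ L : List G, P (L.map (h * ·)) = P L)
    (hcyc : ∀ p (L : List G), Odd L.length → P (p :: L) = -P (L ++ [x * p])) {n : ℕ}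
    (hn : Even n) (hn0 : n ≠ 0) : CS r a tr n (fun _ L => P L) = 0 := by
  obtain ⟨N, rfl⟩ : ∃ N, n = N + 2 := ⟨n - 2, by
    obtain ⟨j, hj⟩ := hn
    omega⟩
  -- the first vertex is free
  have h1 : CS r a tr (N + 2) (fun _ L => P L) =
      CS r a tr (N + 2) (fun p L => P (p :: L.dropLast)) := by
    rw [← CS_rotate r tr ha htr (N := N + 1) (Φ := fun p L => P (p :: L.dropLast))]
    · refine CS_congr r a tr fun p L hL => ?_
      obtain ⟨d, D, rfl⟩ : ∃ d D, L = d :: D := by
        cases L with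
        | nil => simp at hL
        | cons d D => exact ⟨d, D, rfl⟩
      simp
    · intro h hh p L
      rw [← hinv h hh (p :: L.dropLast)]
      simp [List.map_dropLast]
  obtain ⟨K, hK⟩ := hP (N + 2)
  have h2 : CS r a tr (N + 2) (fun p L => P (p :: L.dropLast)) =
      CS r a tr (N + 1) (fun p L => P (p :: L)) := by
    rw [← CS_contract r tr ha hid (N := N + 1) (N + 1) le_rfl (Φ := fun p L => P (p :: L)) (K := K)
      (fun p L hL => hK _ (by rw [List.length_cons]; omega))]
    refine CS_congr r a tr fun p L hL => ?_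
    have : L.eraseIdx (N + 1) = L.dropLast := by
      rw [List.dropLast_eq_eraseIdx (i := N + 1) (by omega)]
    rw [this]
  have h3 : CS r a tr (N + 1) (fun p L => P (p :: L)) =
      -CS r a tr (N + 1) (fun p L => P (p :: L)) := by
    have h4 := CS_rotate r tr ha htr (N := N) (Φ := fun p L => P (p :: L)) (by
      intro h hh p L
      rw [← hinv h hh (p :: L)]
      simp)
    conv_lhs => rw [← CS_congr r a tr (Φ := fun p L => -P (L.headD 1 :: (L.tail ++ [x * p])))
      (fun p L hL => by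
        obtain ⟨d, D, rfl⟩ : ∃ d D, L = d :: D := by
          cases L with
          | nil => simp at hL
          | cons d D => exact ⟨d, D, rfl⟩
        rw [hcyc p (d :: D) (by
          rw [hL]
          obtain ⟨j, hj⟩ := hn
          exact ⟨j - 1, by omega⟩)]
        simp)]
    rw [← h4]
    unfold CS
    rw [← tsum_neg]
    refine tsum_congr fun z => ?_
    simp only [term]
    ring
  rw [h1, h2]
  have : (2 : ℂ) * CS r a tr (N + 1) (fun p L => P (p :: L)) = 0 := by
    rw [two_mul]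
    nth_rewrite 2 [h3]
    ring
  exact (mul_eq_zero.1 this).resolve_left two_ne_zero

/-- The periodicity identity. -/
theorem CS_main (htr : ∀ b c, tr (b * c) = tr (c * b)) {P : List G → ℂ} (hP : BdL P)
    (hinv : ∀ h, h * x = x * h → ∀ L : List G, P (L.map (h * ·)) = P L)
    (hcyc : ∀ p (L : List G), Odd L.length → P (p :: L) = -P (L ++ [x * p])) (m : ℕ) :
    (∀ n, Even n → n ≠ 0 → CS r a tr (3 * m + n) (fun _ L => Fm P m L) = 0) ∧
      CS r a tr (3 * m) (fun _ L => Fm P m L) =
        (-1) ^ m * CS r a tr 0 (fun _ L => P L) := by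
  induction m with
  | zero =>
    refine ⟨fun n hn hn0 => ?_, by simp [Fm_zero]⟩
    rw [Nat.mul_zero, Nat.zero_add]
    exact CS_even r tr ha hid htr hP hinv hcyc hn hn0
  | succ m ih =>
    constructor
    · intro n hn hn0
      rw [CS_rec r tr ha hid hP, ih.1 n hn hn0, ih.1 (n + 2) (hn.add even_two) (by omega)]
      ring
    · have h1 := CS_rec r tr ha hid hP m 0
      rw [Nat.add_zero] at h1
      rw [h1, ih.1 (0 + 2) (by norm_num) (by norm_num), Nat.add_zero, ih.2]
      ring

end Vale.Agent.P184.H505
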