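import Vale.Agent.P184.R3.UDefs

/-!
# Products along chains, sums over closed chains
-/

open scoped ENNReal

namespace Vale.Agent.P184.H505

variable {G : Type*} [Group G]

/-- Product along the chain `p, L, p'`. -/
def ep {A : Type*} [Mul A] (a : G → A) : G → List G → G → A
  | p, [], p' => a (p⁻¹ * p')
  | p, c :: L, p' => a (p⁻¹ * c) * ep a c L p'

theorem ep_nil {A : Type*} [Mul A] (a : G → A) (p p' : G) : ep a p [] p' = a (p⁻¹ * p') := rfl

theorem ep_cons {A : Type*} [Mul A] (a : G → A) (p c : G) (L : List G) (p' : G) :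
    ep a p (c :: L) p' = a (p⁻¹ * c) * ep a c L p' := rfl

theorem ep_append {A : Type*} [Semigroup A] (a : G → A) (p : G) (L : List G) (c : G)
    (R : List G) (p' : G) : ep a p (L ++ c :: R) p' = ep a p L c * ep a c R p' := by
  induction L generalizing p with
  | nil => rfl
  | cons d L ih => rw [List.cons_append, ep_cons, ep_cons, ih, mul_assoc]

theorem ep_smul {A : Type*} [Mul A] (a : G → A) (h p : G) (L : List G) (p' : G) :
    ep a (h * p) (L.map (h * ·)) (h * p') = ep a p L p' := by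
  induction L generalizing p with
  | nil =>
    rw [List.map_nil, ep_nil, ep_nil]
    congr 1
    group
  | cons c L ih =>
    rw [List.map_cons, ep_cons, ep_cons, ih]
    congr 2
    group

/-- Product of weights along the chain `p, L, p'`, the weights of the steps being `w n`,
`w (n + 1)`, ... -/
noncomputable def cw (w : ℕ → G → ℝ≥0∞) : ℕ → G → List G → G → ℝ≥0∞
  | n, p, [], p' => w n (p⁻¹ * p')
  | n, p, c :: L, p' => w n (p⁻¹ * c) * cw w (n + 1) c L p'

theorem cw_nil (w : ℕ → G → ℝ≥0∞) (n : ℕ) (p p' : G) : cw w n p [] p' = w n (p⁻¹ * p') := rfl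

theorem cw_cons (w : ℕ → G → ℝ≥0∞) (n : ℕ) (p c : G) (L : List G) (p' : G) :
    cw w n p (c :: L) p' = w n (p⁻¹ * c) * cw w (n + 1) c L p' := rfl

theorem cw_smul (w : ℕ → G → ℝ≥0∞) (n : ℕ) (h p : G) (L : List G) (p' : G) :
    cw w n (h * p) (L.map (h * ·)) (h * p') = cw w n p L p' := by
  induction L generalizing p n with
  | nil =>
    rw [List.map_nil, cw_nil, cw_nil]
    congr 1
    group
  | cons c L ih =>
    rw [List.map_cons, cw_cons, cw_cons, ih]
    congr 2
    group

theorem tsum_shift (f : G → ℝ≥0∞) (p : G) : ∑' c, f (p⁻¹ * c) = ∑' g, f g :=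
  (Equiv.mulLeft p⁻¹).tsum_eq f

theorem cw_sum (w : ℕ → G → ℝ≥0∞) (N : ℕ) : ∀ (n : ℕ) (p : G),
    ∑' p' : G, ∑' c : Fin N → G, cw w n p (List.ofFn c) p' =
      ∏ j ∈ Finset.range (N + 1), ∑' g, w (n + j) g := by
  induction N with
  | zero =>
    intro n p
    have h1 : ∀ p' : G, ∑' c : Fin 0 → G, cw w n p (List.ofFn c) p' = w n (p⁻¹ * p') := by
      intro p'
      rw [tsum_eq_single (default : Fin 0 → G) (fun b hb => absurd (Subsingleton.elim b _) hb)]
      simp [cw_nil]
    simp only [h1, Finset.prod_range_one, Nat.add_zero, zero_add]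
    exact tsum_shift (w n) p
  | succ N ih =>
    intro n p
    have h1 : ∀ p' : G, ∑' c : Fin (N + 1) → G, cw w n p (List.ofFn c) p' =
        ∑' c0 : G, w n (p⁻¹ * c0) * ∑' c : Fin N → G, cw w (n + 1) c0 (List.ofFn c) p' := by
      intro p'
      rw [← (Fin.consEquiv fun _ : Fin (N + 1) => G).tsum_eq]
      have h2 : ∀ z : G × (Fin N → G),
          cw w n p (List.ofFn ((Fin.consEquiv fun _ : Fin (N + 1) => G) z)) p' =
            w n (p⁻¹ * z.1) * cw w (n + 1) z.1 (List.ofFn z.2) p' := by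
        intro z
        have : List.ofFn ((Fin.consEquiv fun _ : Fin (N + 1) => G) z) = z.1 :: List.ofFn z.2 := by
          simp [Fin.consEquiv, List.ofFn_succ]
        rw [this, cw_cons]
      simp only [h2]
      rw [ENNReal.tsum_prod']
      simp only [ENNReal.tsum_mul_left]
    simp only [h1]
    rw [ENNReal.tsum_comm]
    simp only [ENNReal.tsum_mul_left, ih]
    rw [ENNReal.tsum_mul_right, tsum_shift (w n) p, Finset.prod_range_succ' _ (N + 1), mul_comm]
    simp only [Nat.add_zero]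
    congr 1
    refine Finset.prod_congr rfl fun j _ => ?_
    congr 1
    funext g
    congr 1
    omega

/-! ### Conjugators -/

/-- A choice of conjugators. -/
structure Rho (x : G) where
  ρ : {y : G // IsConj x y} → G
  spec : ∀ y, (ρ y)⁻¹ * x * ρ y = y.1

theorem exists_rho (x : G) : Nonempty (Rho x) := by
  have h : ∀ y : {y : G // IsConj x y}, ∃ r : G, r⁻¹ * x * r = y.1 := by
    intro y
    obtain ⟨c, hc⟩ := isConj_iff.1 y.2
    exact ⟨c⁻¹, by rw [inv_inv]; exact hc⟩
  choose r hr using h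
  exact ⟨⟨r, hr⟩⟩

variable {x : G} (r : Rho x)

namespace Rho

/-- The class of a point. -/
def cls (_r : Rho x) (p : G) : {y : G // IsConj x y} :=
  ⟨p⁻¹ * x * p, by
    rw [isConj_iff]
    exact ⟨p⁻¹, by group⟩⟩

/-- The group element moving the point to the transversal. -/
def mv (p : G) : G := r.ρ (r.cls p) * p⁻¹

theorem ρ_mul (y : {y : G // IsConj x y}) : r.ρ y * y.1 = x * r.ρ y := by
  have h1 := r.spec y
  calc r.ρ y * y.1 = r.ρ y * ((r.ρ y)⁻¹ * x * r.ρ y) := by rw [h1]
    _ = _ := by group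

theorem mv_comm (p : G) : r.mv p * x = x * r.mv p := by
  have h := r.ρ_mul (r.cls p)
  have h1 : r.mv p * x = (r.ρ (r.cls p) * (r.cls p).1) * p⁻¹ := by
    simp only [mv, cls]
    group
  rw [h1, h, mv]
  group

theorem cls_comm (h p : G) (hh : h * x = x * h) : r.cls (h * p) = r.cls p := by
  apply Subtype.ext
  simp only [cls]
  have h1 : h⁻¹ * x * h = x := by
    rw [mul_assoc, ← hh]
    group
  calc (h * p)⁻¹ * x * (h * p) = p⁻¹ * (h⁻¹ * x * h) * p := by group
    _ = _ := by rw [h1]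

theorem cls_ρ (y : {y : G // IsConj x y}) : r.cls (r.ρ y) = y := by
  apply Subtype.ext
  simp only [cls]
  exact r.spec y

/-- Pairs of a point of the transversal and a point, with further points. -/
abbrev X (_r : Rho x) (n : ℕ) := {y : G // IsConj x y} × G × (Fin n → G)

/-- Exchange of the two points. -/
def swf {n : ℕ} (z : r.X n) : r.X n :=
  (r.cls z.2.1, r.mv z.2.1 * r.ρ z.1, fun l => r.mv z.2.1 * z.2.2 l)

theorem swf_swf {n : ℕ} (z : r.X n) : r.swf (r.swf z) = z := by
  obtain ⟨y, p, c⟩ := z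
  have h1 : r.cls (r.mv p * r.ρ y) = y := by
    rw [r.cls_comm _ _ (r.mv_comm p), r.cls_ρ]
  have h2 : r.mv (r.mv p * r.ρ y) = (r.mv p)⁻¹ := by
    rw [mv, h1]
    group
  simp only [swf, h1, h2]
  refine Prod.ext rfl (Prod.ext ?_ ?_)
  · simp only [mv]
    group
  · funext l
    simp

/-- Exchange of the two points. -/
def sw (n : ℕ) : r.X n ≃ r.X n := ⟨r.swf, r.swf, r.swf_swf, r.swf_swf⟩

theorem sw_F {n : ℕ} {α : Type*} (F : G → G → (Fin n → G) → α)
    (hF : ∀ h, h * x = x * h → ∀ p p' c, F (h * p) (h * p') (fun l => h * c l) = F p p' c)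
    (z : r.X n) :
    F (r.sw n z).2.1 (r.ρ (r.sw n z).1) (r.sw n z).2.2 = F (r.ρ z.1) z.2.1 z.2.2 := by
  obtain ⟨y, p, c⟩ := z
  have h1 := hF (r.mv p) (r.mv_comm p) (r.ρ y) p c
  have h2 : r.mv p * p = r.ρ (r.cls p) := by
    rw [mv]
    group
  rw [h2] at h1
  exact h1

theorem unfold_tsum {n : ℕ} {α : Type*} [AddCommMonoid α] [TopologicalSpace α]
    (F : G → G → (Fin n → G) → α)
    (hF : ∀ h, h * x = x * h → ∀ p p' c, F (h * p) (h * p') (fun l => h * c l) = F p p' c) :
    ∑' z : r.X n, F (r.ρ z.1) z.2.1 z.2.2 = ∑' z : r.X n, F z.2.1 (r.ρ z.1) z.2.2 := by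
  rw [← (r.sw n).tsum_eq fun z : r.X n => F z.2.1 (r.ρ z.1) z.2.2]
  exact tsum_congr fun z => (r.sw_F F hF z).symm

/-- The sum over the closed chains of the products of the weights. -/
theorem closed_sum (w : ℕ → G → ℝ≥0∞) (N : ℕ) :
    ∑' z : {y : G // IsConj x y} × (Fin N → G),
      cw w 0 (r.ρ z.1) (List.ofFn z.2) (x * r.ρ z.1) ≤
      ∏ j ∈ Finset.range (N + 1), ∑' g, w j g := by
  rw [ENNReal.tsum_prod']
  have h1 : ∀ y : {y : G // IsConj x y}, ∑' c : Fin N → G,
      cw w 0 (r.ρ y) (List.ofFn c) (x * r.ρ y) =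
      ∑' c : Fin N → G, cw w 0 1 (List.ofFn c) y.1 := by
    intro y
    rw [← (Equiv.piCongrRight fun _ : Fin N => Equiv.mulLeft (r.ρ y)).tsum_eq]
    refine tsum_congr fun c => ?_
    have h2 := cw_smul w 0 (r.ρ y) 1 (List.ofFn c) y.1
    rw [mul_one, r.ρ_mul, List.map_ofFn] at h2
    exact h2
  simp only [h1]
  refine (ENNReal.tsum_comp_le_tsum_of_injective Subtype.val_injective
    fun g => ∑' c : Fin N → G, cw w 0 1 (List.ofFn c) g).trans (le_of_eq ?_)
  rw [cw_sum w N 0 1]
  simp only [zero_add]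

end Rho

end Vale.Agent.P184.H505
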