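import Vale.Agent.P184.H505.Chain

/-!
# Sums over closed chains: contraction and rotation
-/

open scoped ENNReal

namespace Vale.Agent.P184.H505

set_option linter.unusedSectionVars false

variable {G A : Type*} [Group G] [NormedRing A] [NormedAlgebra ℂ A] {x : G}
  (r : Rho x) (a : G → A) (tr : A →L[ℂ] ℂ)

/-- The term of the closed chain `z`. -/
noncomputable def term (Φ : G → List G → ℂ) {N : ℕ}
    (z : {y : G // IsConj x y} × (Fin N → G)) : ℂ :=
  tr (ep a (r.ρ z.1) (List.ofFn z.2) (x * r.ρ z.1)) * Φ (r.ρ z.1) (List.ofFn z.2)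

/-- The sum over the closed chains. -/
noncomputable def CS (N : ℕ) (Φ : G → List G → ℂ) : ℂ :=
  ∑' z : {y : G // IsConj x y} × (Fin N → G), term r a tr Φ z

theorem CS_congr {N : ℕ} {Φ Φ' : G → List G → ℂ}
    (h : ∀ p L, L.length = N → Φ p L = Φ' p L) : CS r a tr N Φ = CS r a tr N Φ' := by
  refine tsum_congr fun z => ?_
  unfold term
  rw [h _ _ (List.length_ofFn)]

theorem ofReal_ep_le (n : ℕ) (p : G) (L : List G) (p' : G) :
    ENNReal.ofReal ‖ep a p L p'‖ ≤ cw (fun _ g => ENNReal.ofReal ‖a g‖) n p L p' := by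
  induction L generalizing p n with
  | nil => exact le_rfl
  | cons c L ih =>
    rw [ep_cons, cw_cons]
    refine (ENNReal.ofReal_le_ofReal (norm_mul_le _ _)).trans ?_
    rw [ENNReal.ofReal_mul (norm_nonneg _)]
    exact mul_le_mul' le_rfl (ih _ _)

theorem cw_ne_top {w : ℕ → G → ℝ≥0∞} (hw : ∀ j, ∑' g, w j g ≠ ∞) (N : ℕ) :
    ∏ j ∈ Finset.range (N + 1), ∑' g, w j g ≠ ∞ :=
  ENNReal.prod_ne_top fun j _ => hw j

variable {a} (ha : Summable fun g => ‖a g‖)
include ha

theorem ofReal_sum_ne_top : ∑' g, ENNReal.ofReal ‖a g‖ ≠ ∞ := by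
  rw [← ENNReal.ofReal_tsum_of_nonneg (fun g => norm_nonneg _) ha]
  exact ENNReal.ofReal_ne_top

theorem term_summable {N : ℕ} {Φ : G → List G → ℂ} {K : ℝ}
    (hΦ : ∀ p L, L.length = N → ‖Φ p L‖ ≤ K) :
    Summable fun z : {y : G // IsConj x y} × (Fin N → G) => term r a tr Φ z := by
  have hK : ∀ z : {y : G // IsConj x y} × (Fin N → G),
      ENNReal.ofReal ‖term r a tr Φ z‖ ≤ ENNReal.ofReal (‖tr‖ * K) *
        cw (fun _ g => ENNReal.ofReal ‖a g‖) 0 (r.ρ z.1) (List.ofFn z.2) (x * r.ρ z.1) := by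
    intro z
    have hK0 : 0 ≤ K := (norm_nonneg _).trans (hΦ (r.ρ z.1) (List.ofFn z.2) List.length_ofFn)
    have h1 : ‖term r a tr Φ z‖ ≤
        (‖tr‖ * K) * ‖ep a (r.ρ z.1) (List.ofFn z.2) (x * r.ρ z.1)‖ := by
      unfold term
      rw [norm_mul]
      calc ‖tr (ep a (r.ρ z.1) (List.ofFn z.2) (x * r.ρ z.1))‖ *
            ‖Φ (r.ρ z.1) (List.ofFn z.2)‖
          ≤ (‖tr‖ * ‖ep a (r.ρ z.1) (List.ofFn z.2) (x * r.ρ z.1)‖) * K :=
            mul_le_mul (tr.le_opNorm _) (hΦ _ _ List.length_ofFn) (norm_nonneg _)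
              (mul_nonneg (norm_nonneg _) (norm_nonneg _))
        _ = _ := by ring
    refine (ENNReal.ofReal_le_ofReal h1).trans ?_
    rw [ENNReal.ofReal_mul (mul_nonneg (norm_nonneg _) hK0)]
    exact mul_le_mul' le_rfl (ofReal_ep_le a 0 _ _ _)
  have h2 : ∑' z : {y : G // IsConj x y} × (Fin N → G), ENNReal.ofReal ‖term r a tr Φ z‖ ≠ ∞ := by
    refine ne_top_of_le_ne_top ?_ (ENNReal.tsum_le_tsum hK)
    rw [ENNReal.tsum_mul_left]
    refine ENNReal.mul_ne_top ENNReal.ofReal_ne_top ?_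
    exact ne_top_of_le_ne_top (cw_ne_top (fun _ => ofReal_sum_ne_top ha) N)
      (r.closed_sum (fun _ g => ENNReal.ofReal ‖a g‖) N)
  have h3 := ENNReal.summable_toReal h2
  refine Summable.of_norm (h3.congr fun z => ?_)
  rw [ENNReal.toReal_ofReal (norm_nonneg _)]

theorem ep_hasSum [CompleteSpace A] (hid : ∀ g, HasSum (fun h => a h * a (h⁻¹ * g)) (a g)) (p : G)
    (L R : List G) (p' : G) :
    HasSum (fun c => ep a p (L ++ c :: R) p') (ep a p (L ++ R) p') := by
  have hc : ∀ p p' : G, HasSum (fun c => a (p⁻¹ * c) * a (c⁻¹ * p')) (a (p⁻¹ * p')) := by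
    intro p p'
    have h1 := hid (p⁻¹ * p')
    rw [← (Equiv.mulLeft p⁻¹).hasSum_iff] at h1
    refine h1.congr_fun ?_ |> fun h => h
    intro c
    simp only [Function.comp, Equiv.coe_mulLeft]
    congr 2
    group
  induction L generalizing p with
  | nil =>
    rw [List.nil_append]
    cases R with
    | nil => exact hc p p'
    | cons d R =>
      have h1 := (hc p d).mul_right (ep a d R p')
      rw [ep_cons]
      refine h1.congr_fun ?_ |> fun h => h
      intro c
      rw [List.nil_append, ep_cons, ep_cons, mul_assoc]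
  | cons d L ih =>
    rw [List.cons_append, ep_cons]
    exact (ih d).mul_left (a (p⁻¹ * d))

omit ha in
theorem ofFn_split {α : Type*} {n : ℕ} (f : Fin (n + 1) → α) (p : Fin (n + 1)) :
    List.ofFn f = (List.ofFn fun k => f (p.succAbove k)).take p ++
      f p :: (List.ofFn fun k => f (p.succAbove k)).drop p := by
  induction n with
  | zero =>
    have hp : p = 0 := Fin.ext (by omega)
    subst hp
    simp
  | succ n ih =>
    refine Fin.cases ?_ (fun q => ?_) p
    · simp [List.ofFn_succ]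
    · have h := ih (fun k => f k.succ) q
      rw [List.ofFn_succ, h]
      rw [List.ofFn_succ (f := fun k => f (q.succ.succAbove k))]
      simp [Fin.succ_succAbove_succ]

omit ha in
theorem eraseIdx_split {α : Type*} (L : List α) (i : ℕ) (hi : i ≤ L.length) (c : α) :
    (L.take i ++ c :: L.drop i).eraseIdx i = L := by
  rw [List.eraseIdx_append_of_length_le (by simp)]
  have h1 : i - (L.take i).length = 0 := by
    rw [List.length_take]
    omega
  rw [h1, List.eraseIdx_cons_zero, List.take_append_drop]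

/-- Contraction of the vertex with number `i`. -/
theorem CS_contract [CompleteSpace A] (hid : ∀ g, HasSum (fun h => a h * a (h⁻¹ * g)) (a g))
    {N : ℕ} (i : ℕ) (hi : i ≤ N) {Φ : G → List G → ℂ} {K : ℝ}
    (hΦ : ∀ p L, L.length = N → ‖Φ p L‖ ≤ K) :
    CS r a tr (N + 1) (fun p L => Φ p (L.eraseIdx i)) = CS r a tr N Φ := by
  have hs : Summable fun z : {y : G // IsConj x y} × (Fin (N + 1) → G) =>
      term r a tr (fun p L => Φ p (L.eraseIdx i)) z := by
    refine term_summable r tr ha (K := K) fun p L hL => hΦ _ _ ?_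
    rw [List.length_eraseIdx, hL]
    simp only [Nat.add_sub_cancel, ite_eq_left_iff]
    omega
  let i' : Fin (N + 1) := ⟨i, by omega⟩
  let ee : ({y : G // IsConj x y} × (Fin N → G)) × G ≃
      {y : G // IsConj x y} × (Fin (N + 1) → G) :=
    (Equiv.prodAssoc _ _ _).trans ((Equiv.refl _).prodCongr
      ((Equiv.prodComm _ _).trans (Fin.insertNthEquiv (fun _ : Fin (N + 1) => G) i')))
  have hee : ∀ (z : {y : G // IsConj x y} × (Fin N → G)) (c : G),
      List.ofFn (ee (z, c)).2 = (List.ofFn z.2).take i ++ c :: (List.ofFn z.2).drop i := by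
    intro z c
    have h1 : (ee (z, c)).2 = i'.insertNth (α := fun _ => G) c z.2 := rfl
    rw [h1, ofFn_split _ i']
    simp [i']
  have hee1 : ∀ (z : {y : G // IsConj x y} × (Fin N → G)) (c : G), (ee (z, c)).1 = z.1 :=
    fun z c => rfl
  have hs2 := (ee.summable_iff).2 hs
  have h1 : CS r a tr (N + 1) (fun p L => Φ p (L.eraseIdx i)) =
      ∑' z : ({y : G // IsConj x y} × (Fin N → G)) × G,
        term r a tr (fun p L => Φ p (L.eraseIdx i)) (ee z) := (ee.tsum_eq _).symm
  rw [h1]
  have h2 := hs2.hasSum.prod_fiberwise (g := fun z => term r a tr Φ z) ?_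
  · exact h2.tsum_eq.symm
  · intro z
    have h3 := ep_hasSum ha hid (r.ρ z.1) ((List.ofFn z.2).take i) ((List.ofFn z.2).drop i)
      (x * r.ρ z.1)
    rw [List.take_append_drop] at h3
    have h4 := (h3.mapL tr).mul_right (Φ (r.ρ z.1) (List.ofFn z.2))
    refine h4.congr_fun ?_ |> fun h => h
    intro c
    simp only [Function.comp, term, hee, hee1]
    rw [eraseIdx_split _ _ (by rw [List.length_ofFn]; exact hi)]

omit ha in
theorem ofFn_snoc {α : Type*} {N : ℕ} (D : Fin N → α) (u : α) :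
    List.ofFn (Fin.snoc (α := fun _ => α) D u : Fin (N + 1) → α) = List.ofFn D ++ [u] := by
  rw [List.ofFn_succ_last]
  simp

/-- Rotation of the closed chains. -/
theorem CS_rotate (htr : ∀ b c, tr (b * c) = tr (c * b)) {N : ℕ} {Φ : G → List G → ℂ}
    (hΦ : ∀ h, h * x = x * h → ∀ p L, Φ (h * p) (L.map (h * ·)) = Φ p L) :
    CS r a tr (N + 1) (fun p L => Φ (L.headD 1) (L.tail ++ [x * p])) =
      CS r a tr (N + 1) Φ := by
  set F : G → G → (Fin N → G) → ℂ := fun p p' D =>
    tr (ep a p' (List.ofFn D ++ [x * p]) (x * p')) * Φ p' (List.ofFn D ++ [x * p]) with hF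
  have hinv : ∀ h, h * x = x * h → ∀ p p' D, F (h * p) (h * p') (fun l => h * D l) = F p p' D := by
    intro h hh p p' D
    have h1 : List.ofFn (fun l => h * D l) ++ [x * (h * p)] =
        (List.ofFn D ++ [x * p]).map (h * ·) := by
      rw [List.map_append, List.map_ofFn]
      congr 1
      rw [List.map_singleton, ← mul_assoc, ← hh, mul_assoc]
    have h2 : x * (h * p') = h * (x * p') := by rw [← mul_assoc, ← hh, mul_assoc]
    simp only [hF, h1, h2]
    rw [ep_smul, hΦ h hh]
  have h1 : CS r a tr (N + 1) (fun p L => Φ (L.headD 1) (L.tail ++ [x * p])) =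
      ∑' z : r.X N, F (r.ρ z.1) z.2.1 z.2.2 := by
    unfold CS
    rw [← ((Equiv.refl {y : G // IsConj x y}).prodCongr
      (Fin.consEquiv fun _ : Fin (N + 1) => G)).tsum_eq]
    refine tsum_congr fun z => ?_
    obtain ⟨y, d, D⟩ := z
    have h2 : List.ofFn (((Equiv.refl {y : G // IsConj x y}).prodCongr
      (Fin.consEquiv fun _ : Fin (N + 1) => G)) (y, d, D)).2 = d :: List.ofFn D := by
      simp [Fin.consEquiv, List.ofFn_succ]
    have h3 : (((Equiv.refl {y : G // IsConj x y}).prodCongr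
      (Fin.consEquiv fun _ : Fin (N + 1) => G)) (y, d, D)).1 = y := rfl
    unfold term
    rw [h2, h3]
    simp only [List.headD_cons, List.tail_cons, hF]
    congr 1
    rw [ep_cons, htr, ep_append, ep_nil]
    congr 3
    group
  rw [h1, r.unfold_tsum F hinv]
  unfold CS
  rw [← ((Equiv.refl {y : G // IsConj x y}).prodCongr
    (((Equiv.mulLeft x).prodCongr (Equiv.refl _)).trans
      (Fin.snocEquiv fun _ : Fin (N + 1) => G))).tsum_eq]
  refine tsum_congr fun z => ?_
  obtain ⟨y, p, D⟩ := z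
  have h2 : List.ofFn (((Equiv.refl {y : G // IsConj x y}).prodCongr
    (((Equiv.mulLeft x).prodCongr (Equiv.refl _)).trans
      (Fin.snocEquiv fun _ : Fin (N + 1) => G))) (y, p, D)).2 = List.ofFn D ++ [x * p] :=
    ofFn_snoc D (x * p)
  have h3 : (((Equiv.refl {y : G // IsConj x y}).prodCongr
    (((Equiv.mulLeft x).prodCongr (Equiv.refl _)).trans
      (Fin.snocEquiv fun _ : Fin (N + 1) => G))) (y, p, D)).1 = y := rfl
  unfold term
  rw [h2, h3]

end Vale.Agent.P184.H505
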